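import Vale.Agent.P284.H248.Defs
import Mathlib.LinearAlgebra.Projectivization.Basic
import Mathlib.LinearAlgebra.Dimension.Finrank
import Mathlib.Analysis.Analytic.Basic

/-!
# P284: the Iitaka dimension as the largest dimension of the images of the maps `φ_{|L^m|}`
-/

open Filter Topology

noncomputable section

namespace Vale.Agent.P284W16

open Vale.Agent.P272.K Vale.Agent.P284.H248

/-- Complex projective space `ℙ^N`, the lines in `ℂ^(N+1)`. -/
def PN (N : ℕ) : Type := Projectivization ℂ (Fin (N + 1) → ℂ)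

/-- The quotient topology of `ℙ^N = (ℂ^(N+1) ∖ 0) / ℂˣ`. -/
instance (N : ℕ) : TopologicalSpace (PN N) :=
  inferInstanceAs (TopologicalSpace (Quotient (projectivizationSetoid ℂ (Fin (N + 1) → ℂ))))

variable {N : ℕ}

/-- The point `[v_0 : … : v_N]`. -/
def pt (v : Fin (N + 1) → ℂ) (hv : v ≠ 0) : PN N := Projectivization.mk ℂ v hv

/-- The affine chart number `a`: `w ↦ [w_0 : … : 1 : … : w_(N-1)]`, with `1` in place `a`. -/
def aff (a : Fin (N + 1)) (w : Cm N) : PN N :=
  pt (Fin.insertNth a 1 w) fun h => by simpa using congrFun h a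

/-- `y` is a regular point of `Y` of dimension `d`: near `y`, in some holomorphic coordinates `G`,
the set `Y` is a linear subspace `E` of dimension `d`. -/
def RegularAt (Y : Set (PN N)) (y : PN N) (d : ℕ) : Prop :=
  y ∈ Y ∧ ∃ (a : Fin (N + 1)) (p : Cm N) (G : Cm N → Cm N) (E : Submodule ℂ (Cm N)),
    aff a p = y ∧ AnalyticAt ℂ G p ∧ Function.Bijective (fderiv ℂ G p) ∧
      Module.finrank ℂ E = d ∧ ∀ᶠ w in 𝓝 p, aff a w ∈ Y ↔ G w ∈ E

/-- `dim Y = d`: the largest dimension of `Y` at a regular point is `d`. -/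
def HasDim (Y : Set (PN N)) (d : ℕ) : Prop := IsGreatest {k | ∃ y, RegularAt Y y k} d

variable {n : ℕ} {X : Type} [TopologicalSpace X] [ChartedSpace (Cm n) X]

section

variable {L : LineBundle n X} {m : ℕ}

/-- The section `t` is not zero. -/
def NonZero (t : Sec L m) : Prop := ∃ i x, x ∈ L.U i ∧ t.f i x ≠ 0

/-- `s_0, …, s_N` is a basis of `H⁰(X, L^m)`. -/
def IsBasis (s : Fin (N + 1) → Sec L m) : Prop :=
  ∀ t : Sec L m, ∃! c : Fin (N + 1) → ℂ, ∀ i x, x ∈ L.U i → t.f i x = ∑ a, c a * (s a).f i x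

/-- The graph of `x ↦ [s_0(x) : … : s_N(x)]` over the complement of the base locus. -/
def graph (s : Fin (N + 1) → Sec L m) : Set (X × PN N) :=
  {q | ∃ i, q.1 ∈ L.U i ∧ ∃ h : (fun a => (s a).f i q.1) ≠ 0, q.2 = pt _ h}

/-- The image of the meromorphic map `[s_0 : … : s_N]`: the projection of its closed graph. -/
def image (s : Fin (N + 1) → Sec L m) : Set (PN N) := Prod.snd '' closure (graph s)

end

/-- `κ(X, L) = k`: `k` is the largest dimension of the images of the meromorphic maps defined by the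
complete linear systems `|L^m|`, `m ≥ 1`. (There is no such `k` if all `H⁰(X, L^m)` vanish.) -/
def Kappa (L : LineBundle n X) (k : ℕ) : Prop :=
  IsGreatest {d | ∃ m : ℕ, 1 ≤ m ∧ ∃ (N : ℕ) (s : Fin (N + 1) → Sec L m),
    IsBasis s ∧ HasDim (image s) d} k

variable (n X) in
/-- `X` is special: there are no `1 ≤ p ≤ n` and no line bundle `L` with `κ(X, L) = p` which admits
a nonzero morphism `L → Ω_X^p`. -/
def IsSpecial : Prop :=
  ∀ p : ℕ, 1 ≤ p → p ≤ n → ∀ L : LineBundle n X, Kappa L p → ∀ φ : Mor L p, ¬ φ.Nonzero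

end Vale.Agent.P284W16
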