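import Vale.Agent.P284W16.Lower

/-!
# P284W16: the dimension of the image is the largest rank
-/

set_option linter.all false

open Metric Filter Topology Asymptotics Set
open scoped Manifold ContDiff

noncomputable section

namespace Vale.Agent.P284W16

open Vale.Agent.P272.K Vale.Agent.P284.H248

variable {N k n : ℕ} {X : Type} [TopologicalSpace X] [ChartedSpace (Cm n) X]
variable {L : LineBundle n X} {m : ℕ}

theorem RkGE.le (h : RkGE L m k) : k ≤ n := by
  obtain ⟨s, i, e, x, -, -, -, hl⟩ := h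
  have h1 := LinearMap.finrank_le_finrank_of_surjective
    (f := (ContinuousLinearMap.pi fun a : Fin k =>
      fderiv ℂ (fun z => (s a.succ).f i (e.symm z) / (s 0).f i (e.symm z)) (e x) :
        Cm n →L[ℂ] Cm k).toLinearMap) ((clm_indep _).1 hl)
  simpa using h1

theorem RkGE.mono {k' : ℕ} (h : RkGE L m k) (hk : k' ≤ k) : RkGE L m k' := by
  obtain ⟨s, i, e, x, he, hi, h0, hl⟩ := h
  exact ⟨fun a => s (Fin.castLE (Nat.succ_le_succ hk) a), i, e, x, he, hi, h0,
    hl.comp (Fin.castLE hk) (Fin.castLE_injective hk)⟩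

theorem RkGE.nonZero (h : RkGE L m k) : ∃ t : Sec L m, NonZero t := by
  obtain ⟨s, i, e, x, -, hi, h0, -⟩ := h
  exact ⟨s 0, i, x, hi, h0⟩

theorem NonZero.rk {t : Sec L m} (h : NonZero t) : RkGE L m 0 := by
  obtain ⟨i, x, hi, h0⟩ := h
  exact ⟨fun _ => t, i, ch n x, x, at_ch x, hi, h0, linearIndependent_empty_type⟩

theorem IsBasis.nonZero {s : Fin (N + 1) → Sec L m} (hs : IsBasis s) (a : Fin (N + 1)) :
    NonZero (s a) := by
  classical
  by_contra h
  have h1 : ∀ i x, x ∈ L.U i → (s a).f i x = 0 := fun i x hi => by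
    by_contra h2
    exact h ⟨i, x, hi, h2⟩
  have h2 := (hs (s a)).unique (y₁ := 0) (y₂ := Pi.single a 1)
    (fun i x hi => by simp [h1 i x hi]) (fun i x hi => by simp [Pi.single_apply])
  simpa using congrFun h2 a

theorem exists_rk (h : RkGE L m 0) : ∃ d, RkGE L m d ∧ ¬ RkGE L m (d + 1) := by
  classical
  refine ⟨Nat.findGreatest (RkGE L m) n, Nat.findGreatest_spec (Nat.zero_le n) h, fun h1 => ?_⟩
  exact Nat.findGreatest_is_greatest (Nat.lt_succ_self _) h1.le h1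

variable [T2Space X] [CompactSpace X] [ConnectedSpace X]

theorem lower (s : Fin (N + 1) → Sec L m) (hs : IsBasis s) (hk : RkGE L m k)
    (hk' : ¬ RkGE L m (k + 1)) : ∃ y, RegularAt (image s) y k := by
  classical
  obtain ⟨a, β, i, e, x, hβ, he, hi, ha, hl⟩ := coords s hs hk
  let f : Cm n → Cm N := fun z => co a (vec s i (e.symm z))
  have hgood : ∀ᶠ y in 𝓝 x, y ∈ e.source ∧ y ∈ L.U i ∧ (s a).f i y ≠ 0 ∧
      Function.Surjective (fderiv ℂ (fun z l => f z (β l)) (e y)) := by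
    have h1 : ContinuousAt (fun y l => fderiv ℂ (fun z => f z (β l)) (e y)) x :=
      continuousAt_pi.2 fun l => ContinuousAt.comp (f := e)
        (analyticAt_pi_iff.1 (co_an s a he hi ha) (β l)).fderiv.continuousAt (e.continuousAt he.2)
    filter_upwards [e.open_source.mem_nhds he.2, (L.isOpen i).mem_nhds hi,
      (sec_cont (s a) hi).eventually_ne ha, h1.eventually hl.eventually] with y h2 h3 h4 h5
    refine ⟨h2, h3, h4, ?_⟩
    rw [fderiv_pi fun l => (analyticAt_pi_iff.1 (co_an s a ⟨he.1, h2⟩ h3 h4) (β l)).differentiableAt]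
    exact (clm_indep _).1 h5
  let t : Fin N → Fin (k + 1) → Sec L m := fun j =>
    Fin.cons (s (a.succAbove j)) fun l => s (a.succAbove (β l))
  have ht : ∀ j i' y, (fun b => (t j b).f i' y / (s a).f i' y) =
      (Fin.cons (co a (vec s i' y) j) fun l => co a (vec s i' y) (β l) : Fin (k + 1) → ℂ) :=
    fun j i' y => funext fun b => Fin.cases rfl (fun _ => rfl) b
  let Vn : Fin N → Polynomial (MvPolynomial (Fin k) ℂ) → Prop := fun j Q => ∀ i' y, y ∈ L.U i' →
    (s a).f i' y ≠ 0 → ev Q (fun l => co a (vec s i' y) (β l)) (co a (vec s i' y) j) = 0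
  have hQ : ∀ j, ∃ Q, Vn j Q ∧ ¬ Vn j Q.derivative := by
    intro j
    have h1 : ∃ d, ∃ Q, Q ≠ 0 ∧ Vn j Q ∧ Q.natDegree = d := by
      obtain ⟨P, hP0, hP⟩ := thimm' hk' (s a) (t j) ⟨i, x, hi, ha⟩
      refine ⟨_, MvPolynomial.finSuccEquiv ℂ k P, by simpa using hP0, fun i' y h1 h2 => ?_, rfl⟩
      rw [← ev_eq, AlgEquiv.symm_apply_apply, ← ht]
      exact hP i' y h1 h2
    obtain ⟨Q, hQ0, hQ, hd⟩ := Nat.find_spec h1
    have h2 : Q.natDegree ≠ 0 := by
      intro h2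
      rw [Polynomial.eq_C_of_natDegree_eq_zero h2] at hQ hQ0
      refine hQ0 (Polynomial.C_eq_zero.2 (poly_zero (ζ := fun l => f (e x) (β l)) ?_))
      have hBa : AnalyticAt ℂ (fun z l => f z (β l)) (e x) :=
        analyticAt_pi_iff.2 fun l => analyticAt_pi_iff.1 (co_an s a he hi ha) (β l)
      rw [← hBa.hasStrictFDerivAt.map_nhds_eq_of_surj
        (LinearMap.range_eq_top.2 hgood.self_of_nhds.2.2.2), eventually_map]
      filter_upwards [ev_chart he.2 hgood] with z hz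
      simpa [ev] using hQ i _ hz.2.2.1 hz.2.2.2.1
    refine ⟨Q, hQ, fun h3 => ?_⟩
    exact Nat.find_min h1 (hd ▸ Polynomial.natDegree_derivative_lt h2)
      ⟨_, Polynomial.derivative_ne_zero.2 h2, h3, rfl⟩
  choose Q hQ hQ' using hQ
  let S : (j : Fin N) → Sec L (m * _) := fun j =>
    homS ((MvPolynomial.finSuccEquiv ℂ k).symm (Q j).derivative) le_rfl (t j) (s a)
  have hS : ∀ j i' y, (s a).f i' y ≠ 0 → ((S j).f i' y ≠ 0 ↔
      ev (Q j).derivative (fun l => co a (vec s i' y) (β l)) (co a (vec s i' y) j) ≠ 0) := by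
    intro j i' y hy
    simp only [S, homS]
    rw [homF_div le_rfl _ hy, ht, ev_eq]
    simp [hy]
  have hS0 : ∀ j, NonZero (S j) := fun j => by
    have h1 := hQ' j
    simp only [Vn, not_forall] at h1
    obtain ⟨i', y, h2, h3, h4⟩ := h1
    exact ⟨i', y, h2, (hS j i' y h3).2 h4⟩
  obtain ⟨y, hy1, hy2⟩ := (dense_iInter_of_isOpen (fun j => isOpen_NZ (S j))
    fun j => dense_NZ (hS0 j)).inter_nhds_nonempty hgood
  obtain ⟨h1, h2, h3, h4⟩ := hy2
  have hfy : f (e y) = co a (vec s i y) := by simp only [f, e.left_inv h1]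
  obtain ⟨G, E, h5, h6, h7, h8⟩ := reg_of (Y := {w | aff a w ∈ image s}) (f := f) (z₁ := e y)
    (co_an s a ⟨he.1, h1⟩ h2 h3) (by
      filter_upwards [ev_chart h1 (((L.isOpen i).eventually_mem h2).and
        ((sec_cont (s a) h2).eventually_ne h3))] with z hz
      exact mem_image s a hz.2.1 hz.2.2) hβ h4 Q
    (fun j w hw => image_zero s a (φ := fun w => ev (Q j) (fun l => w (β l)) (w j))
      (continuous_iff_continuousAt.2 fun p => (ev_an (Q j) β j p).continuousAt) (hQ j) hw)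
    (fun j => by
      rw [hfy]
      exact (hS j i y h3).1 ((mem_NZ (S j) h2).1 (mem_iInter.1 hy1 j)))
  refine ⟨_, ?_, a, f (e y), G, E, rfl, h5, h6, h7, h8⟩
  rw [hfy]
  exact mem_image s a h2 h3

theorem hasDim (s : Fin (N + 1) → Sec L m) (hs : IsBasis s) (hk : RkGE L m k)
    (hk' : ¬ RkGE L m (k + 1)) : HasDim (image s) k :=
  ⟨lower s hs hk hk', fun _ ⟨_, h⟩ => upper hk' s h⟩

theorem exists_dim (s : Fin (N + 1) → Sec L m) (hs : IsBasis s) :
    ∃ d, RkGE L m d ∧ ¬ RkGE L m (d + 1) ∧ HasDim (image s) d := by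
  obtain ⟨d, h1, h2⟩ := exists_rk (hs.nonZero 0).rk
  exact ⟨d, h1, h2, hasDim s hs h1 h2⟩

theorem rk_of_dim {s : Fin (N + 1) → Sec L m} (hs : IsBasis s) (h : HasDim (image s) k) :
    RkGE L m k := by
  obtain ⟨d, h1, -, h2⟩ := exists_dim s hs
  exact h2.unique h ▸ h1

theorem dim_of_rk (h : RkGE L m k) : ∃ d, k ≤ d ∧ RkGE L m d ∧
    ∃ (N : ℕ) (s : Fin (N + 1) → Sec L m), IsBasis s ∧ HasDim (image s) d := by
  obtain ⟨t, ht⟩ := h.nonZero
  obtain ⟨N, s, hs⟩ := exists_basis ht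
  obtain ⟨d, h1, h2, h3⟩ := exists_dim s hs
  exact ⟨d, not_lt.1 fun h4 => h2 (h.mono h4), h1, N, s, hs, h3⟩

theorem kappa_iff (L : LineBundle n X) (k : ℕ) : Kappa L k ↔ IitakaEQ L k := by
  constructor
  · rintro ⟨⟨m, hm, N, s, hs, h1⟩, h2⟩
    refine ⟨⟨m, hm, rk_of_dim hs h1⟩, ?_⟩
    rintro ⟨m', hm', h3⟩
    obtain ⟨d, h4, -, h5⟩ := dim_of_rk (L := L) (m := m') (k := k + 1) h3
    exact absurd (h2 ⟨m', hm', h5⟩) (by omega)
  · rintro ⟨⟨m, hm, h1⟩, h2⟩
    have h3 : ∀ m' d, 1 ≤ m' → RkGE L m' d → d ≤ k := fun m' d hm' h =>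
      not_lt.1 fun h4 => h2 ⟨m', hm', h.mono h4⟩
    obtain ⟨d, h4, h5, h6⟩ := dim_of_rk (L := L) (m := m) (k := k) h1
    refine ⟨⟨m, hm, le_antisymm (h3 m d hm h5) h4 ▸ h6⟩, ?_⟩
    rintro d' ⟨m', hm', N, s, hs, h7⟩
    exact h3 m' d' hm' (rk_of_dim hs h7)

theorem special_iff : IsSpecial n X ↔ Special n X := by
  simp only [IsSpecial, Special, kappa_iff]

/-- if some `L^m` has a section, then `κ(X, L)` is a number between `0` and `n` -/
theorem exists_kappa (hm : 1 ≤ m) {t : Sec L m} (ht : NonZero t) : ∃ k ≤ n, Kappa L k := by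
  classical
  have h0 : IitakaGE L 0 := ⟨m, hm, ht.rk⟩
  have h1 : ∀ k, IitakaGE L k → k ≤ n := fun k ⟨_, _, h⟩ => RkGE.le h
  refine ⟨Nat.findGreatest (IitakaGE L) n, Nat.findGreatest_le n, (kappa_iff L _).2
    ⟨Nat.findGreatest_spec (Nat.zero_le n) h0, fun h2 => ?_⟩⟩
  exact Nat.findGreatest_is_greatest (Nat.lt_succ_self _) (h1 _ h2) h2

/-- all bases of `H⁰(X, L^m)` define images of the same dimension -/
theorem exists_dim_all {t : Sec L m} (ht : NonZero t) : ∃ d ≤ n, ∀ (N : ℕ)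
    (s : Fin (N + 1) → Sec L m), IsBasis s → HasDim (image s) d := by
  obtain ⟨d, h1, h2⟩ := exists_rk ht.rk
  exact ⟨d, h1.le, fun N s hs => hasDim s hs h1 h2⟩

end Vale.Agent.P284W16
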