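import Vale.Agent.P284W16.Upper

/-!
# P284W16: a regular point of the image
-/

set_option linter.all false

open Metric Filter Topology Asymptotics Set
open scoped Manifold ContDiff

noncomputable section

namespace Vale.Agent.P284W16

open Vale.Agent.P272.K Vale.Agent.P284.H248

variable {N k n : ℕ}

/-- values of polynomials in `k + 1` variables -/
def ev (Q : Polynomial (MvPolynomial (Fin k) ℂ)) (y : Cm k) (z : ℂ) : ℂ :=
  (Q.map (MvPolynomial.eval y)).eval z

theorem ev_eq (Q : Polynomial (MvPolynomial (Fin k) ℂ)) (y : Cm k) (z : ℂ) :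
    MvPolynomial.eval (Fin.cons z y : Fin (k + 1) → ℂ) ((MvPolynomial.finSuccEquiv ℂ k).symm Q) =
      ev Q y z := by
  rw [MvPolynomial.eval_eq_eval_mv_eval', AlgEquiv.apply_symm_apply, ev]

theorem ev_an (Q : Polynomial (MvPolynomial (Fin k) ℂ)) (β : Fin k → Fin N) (j : Fin N)
    (p : Cm N) : AnalyticAt ℂ (fun w : Cm N => ev Q (fun l => w (β l)) (w j)) p := by
  have h1 : ∀ j, AnalyticAt ℂ (fun w : Cm N => w j) p := fun j =>
    (ContinuousLinearMap.proj (R := ℂ) (φ := fun _ : Fin N => ℂ) j).analyticAt p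
  have h2 := AnalyticAt.aeval_mvPolynomial (𝕜 := ℂ) (z := p)
    (f := fun w : Cm N => (Fin.cons (w j) fun l => w (β l) : Fin (k + 1) → ℂ))
    (fun i => Fin.cases (h1 j) (fun l => h1 (β l)) i) ((MvPolynomial.finSuccEquiv ℂ k).symm Q)
  simpa only [MvPolynomial.aeval_eq_eval, ev_eq] using h2

theorem reg_of {Y : Set (Cm N)} {f : Cm n → Cm N} {z₁ : Cm n} (hf : AnalyticAt ℂ f z₁)
    (hY : ∀ᶠ z in 𝓝 z₁, f z ∈ Y) {β : Fin k → Fin N} (hβ : Function.Injective β)
    (hB : Function.Surjective (fderiv ℂ (fun z l => f z (β l)) z₁))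
    (Q : Fin N → Polynomial (MvPolynomial (Fin k) ℂ))
    (hQ : ∀ j, ∀ w ∈ Y, ev (Q j) (fun l => w (β l)) (w j) = 0)
    (hQ' : ∀ j, ev (Q j).derivative (fun l => f z₁ (β l)) (f z₁ j) ≠ 0) :
    ∃ (G : Cm N → Cm N) (E : Submodule ℂ (Cm N)), AnalyticAt ℂ G (f z₁) ∧
      Function.Bijective (fderiv ℂ G (f z₁)) ∧ Module.finrank ℂ E = k ∧
      ∀ᶠ w in 𝓝 (f z₁), w ∈ Y ↔ G w ∈ E := by
  classical
  set p := f z₁ with hp
  let G : Cm N → Cm N := fun w j =>
    if j ∈ range β then w j else ev (Q j) (fun l => w (β l)) (w j)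
  have hG : AnalyticAt ℂ G p := by
    refine analyticAt_pi_iff.2 fun j => ?_
    by_cases hj : j ∈ range β
    · simp only [G, if_pos hj]
      exact (ContinuousLinearMap.proj (R := ℂ) (φ := fun _ : Fin N => ℂ) j).analyticAt p
    · simp only [G, if_neg hj]
      exact ev_an _ _ _ _
  have hinj : Function.Injective (fderiv ℂ G p) := by
    refine (injective_iff_map_eq_zero _).2 fun v hv => ?_
    have h1 : HasDerivAt (fun τ : ℂ => p + τ • v) v 0 := by
      simpa using ((hasDerivAt_id (0 : ℂ)).smul_const v).const_add p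
    have h2 : HasDerivAt (fun τ : ℂ => G (p + τ • v)) 0 0 := by
      have := HasFDerivAt.comp_hasDerivAt_of_eq (0 : ℂ) hG.differentiableAt.hasFDerivAt h1
        (by simp)
      rwa [hv] at this
    have h3 := hasDerivAt_pi.1 h2
    have h4 := hasDerivAt_pi.1 h1
    have h5 : ∀ j ∈ range β, v j = 0 := fun j hj => by
      have h6 := h3 j
      simp only [G, if_pos hj] at h6
      exact (h4 j).unique h6
    funext j
    by_cases hj : j ∈ range β
    · exact h5 j hj
    · have h6 := h3 j
      have h7 : ∀ τ : ℂ, (fun l => (p + τ • v) (β l)) = fun l => p (β l) := fun τ =>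
        funext fun l => by simp [h5 _ ⟨l, rfl⟩]
      simp only [G, if_neg hj, h7] at h6
      have h8 := HasDerivAt.comp_of_eq (0 : ℂ)
        (((Q j).map (MvPolynomial.eval fun l => p (β l))).hasDerivAt (p j)) (h4 j) (by simp)
      have h9 := h8.unique h6
      rw [Polynomial.derivative_map] at h9
      exact (mul_eq_zero.1 h9).resolve_left (hQ' j)
  have hbij : Function.Bijective (fderiv ℂ G p) :=
    ⟨hinj, (LinearMap.injective_iff_surjective
      (f := (fderiv ℂ G p : Cm N →ₗ[ℂ] Cm N))).1 hinj⟩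
  refine ⟨G, Pi.spanSubset ℂ (range β), hG, hbij, ?_, ?_⟩
  · rw [Pi.dim_spanSubset, ← image_univ, ncard_image_of_injective _ hβ]
    simp
  let D : Cm N ≃L[ℂ] Cm N := ContinuousLinearEquiv.ofBijective (fderiv ℂ G p)
    (LinearMap.ker_eq_bot.2 hbij.1) (LinearMap.range_eq_top.2 hbij.2)
  have hD : HasStrictFDerivAt G (D : Cm N →L[ℂ] Cm N) p := hG.hasStrictFDerivAt
  have hV := hD.eventually_left_inverse
  have hBa : AnalyticAt ℂ (fun z l => f z (β l)) z₁ :=
    analyticAt_pi_iff.2 fun l => analyticAt_pi_iff.1 hf (β l)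
  have h1 := hBa.hasStrictFDerivAt.map_nhds_eq_of_surj (LinearMap.range_eq_top.2 hB)
  have h2 := image_mem_map (m := fun z l => f z (β l))
    (hY.and (hf.continuousAt.tendsto.eventually hV))
  rw [h1] at h2
  have h3 : Tendsto (fun (w : Cm N) l => w (β l)) (𝓝 p) (𝓝 fun l => f z₁ (β l)) :=
    (continuous_pi fun l => continuous_apply (β l)).tendsto p
  filter_upwards [hV, h3 h2] with w h4 h5
  rw [Pi.mem_spanSubset_iff]
  refine ⟨fun hw j hj => by simp only [G, if_neg hj, hQ j w hw], fun hw => ?_⟩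
  obtain ⟨z, ⟨h6, h7⟩, h8⟩ := h5
  have h9 : G (f z) = G w := by
    funext j
    by_cases hj : j ∈ range β
    · obtain ⟨l, rfl⟩ := hj
      simp only [G, if_pos (mem_range_self l)]
      exact congrFun h8 l
    · rw [hw j hj]
      simp only [G, if_neg hj, hQ j _ h6]
  rw [← h4, ← h9, h7]
  exact h6

variable {X : Type} [TopologicalSpace X] [ChartedSpace (Cm n) X]
variable {L : LineBundle n X} {m : ℕ}

theorem co_an (s : Fin (N + 1) → Sec L m) (a : Fin (N + 1)) {i : L.ι} {e : Chart n X} {x : X}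
    (he : At e x) (hi : x ∈ L.U i) (hx : (s a).f i x ≠ 0) :
    AnalyticAt ℂ (fun z => co a (vec s i (e.symm z))) (e x) :=
  analyticAt_pi_iff.2 fun b => ((s _).holo i e x he hi).analyticAt.div
    ((s a).holo i e x he hi).analyticAt (by simpa [vec, e.left_inv he.2] using hx)

theorem coords (s : Fin (N + 1) → Sec L m) (hs : IsBasis s) (hk : RkGE L m k) :
    ∃ (a : Fin (N + 1)) (β : Fin k → Fin N) (i : L.ι) (e : Chart n X) (x : X),
      Function.Injective β ∧ At e x ∧ x ∈ L.U i ∧ (s a).f i x ≠ 0 ∧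
      LinearIndependent ℂ fun l => fderiv ℂ (fun z => co a (vec s i (e.symm z)) (β l)) (e x) := by
  classical
  obtain ⟨t, i, e, x, he, hi, h0, hl⟩ := hk
  choose c hc using fun j => (hs (t j)).exists
  obtain ⟨a, ha⟩ : ∃ a, (s a).f i x ≠ 0 := by
    by_contra! h
    exact h0 (by simp [hc 0 i x hi, h])
  let f : Cm n → Cm N := fun z => co a (vec s i (e.symm z))
  have hf : AnalyticAt ℂ f (e x) := co_an s a he hi ha
  let u : Fin (k + 1) → Cm N → ℂ := fun j w =>
    ∑ b, c j b * (Fin.insertNth a 1 w : Fin (N + 1) → ℂ) b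
  have hu : ∀ j, Differentiable ℂ (u j) := fun j => by
    refine Differentiable.fun_sum fun b _ => (differentiable_const _).mul ?_
    refine Fin.succAboveCases a ?_ (fun b => ?_) b
    · simp
    · simp only [Fin.insertNth_apply_succAbove]
      fun_prop
  have hut : ∀ j y, y ∈ L.U i → (s a).f i y ≠ 0 →
      (t j).f i y = (s a).f i y * u j (co a (vec s i y)) := by
    intro j y hy hy'
    rw [hc j i y hy, Finset.mul_sum]
    refine Finset.sum_congr rfl fun b _ => ?_
    have h1 := congrFun (ins_co a (v := vec s i y) hy') b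
    simp only [Pi.smul_apply, smul_eq_mul, vec] at h1 ⊢
    rw [← h1]
    ring
  have hfx : f (e x) = co a (vec s i x) := by simp only [f, e.left_inv he.2]
  have hu0 : u 0 (f (e x)) ≠ 0 := fun h => h0 (by rw [hut 0 x hi ha, ← hfx, h, mul_zero])
  let v : Fin N → Cm n →L[ℂ] ℂ := fun b => fderiv ℂ (fun z => f z b) (e x)
  have hv : ∀ j : Fin k, fderiv ℂ (fun z => (t j.succ).f i (e.symm z) / (t 0).f i (e.symm z)) (e x) ∈
      Submodule.span ℂ (range v) := by
    intro j
    have h1 : (fun z => (t j.succ).f i (e.symm z) / (t 0).f i (e.symm z)) =ᶠ[𝓝 (e x)]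
        (fun w => u j.succ w / u 0 w) ∘ f := by
      filter_upwards [ev_chart he.2 (((L.isOpen i).eventually_mem hi).and
        ((sec_cont (s a) hi).eventually_ne ha))] with z hz
      rw [hut _ _ hz.2.1 hz.2.2, hut _ _ hz.2.1 hz.2.2, mul_div_mul_left _ _ hz.2.2]
      rfl
    have h2 : DifferentiableAt ℂ (fun w => u j.succ w / u 0 w) (f (e x)) := by
      simp only [div_eq_mul_inv]
      exact ((hu _) _).mul (((hu _) _).inv hu0)
    rw [h1.fderiv_eq, fderiv_comp _ h2 hf.differentiableAt]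
    refine (Submodule.mem_span_range_iff_exists_fun ℂ).2
      ⟨fun b => fderiv ℂ (fun w => u j.succ w / u 0 w) (f (e x)) (Pi.single b 1), ?_⟩
    ext y
    have h3 := LinearMap.pi_apply_eq_sum_univ
      (fderiv ℂ (fun w => u j.succ w / u 0 w) (f (e x)) : Cm N →ₗ[ℂ] ℂ) (fderiv ℂ f (e x) y)
    simp only [ContinuousLinearMap.coe_coe] at h3
    rw [ContinuousLinearMap.comp_apply, h3, ContinuousLinearMap.sum_apply]
    refine Finset.sum_congr rfl fun b _ => ?_
    have h4 : (fun j => if b = j then (1 : ℂ) else 0) = Pi.single b 1 :=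
      funext fun j => by simp [Pi.single_apply, eq_comm]
    have h5 : fderiv ℂ f (e x) y b = v b y := by
      rw [show f = fun z b => f z b from rfl,
        fderiv_pi fun b => (analyticAt_pi_iff.1 hf b).differentiableAt]
      rfl
    rw [h4, h5, ContinuousLinearMap.smul_apply, smul_eq_mul, smul_eq_mul, mul_comm]
  obtain ⟨κ, α, hα, hsp, hli⟩ := exists_linearIndependent' ℂ v
  haveI : Finite κ := Finite.of_injective α hα
  haveI := Fintype.ofFinite κ
  have h1 : Fintype.card (Fin k) ≤ Fintype.card κ := by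
    rw [← finrank_span_eq_card hli, hsp]
    exact LinearIndependent.fintype_card_le_finrank
      (b := fun j => (⟨_, hv j⟩ : Submodule.span ℂ (range v)))
      (LinearIndependent.of_comp (Submodule.subtype _) hl)
  obtain ⟨γ⟩ := Function.Embedding.nonempty_of_card_le h1
  exact ⟨a, α ∘ γ, i, e, x, hα.comp γ.injective, he, hi, ha, hli.comp γ γ.injective⟩

end Vale.Agent.P284W16
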