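import Vale.Agent.P284W16.Van

/-!
# P284W16: linear combinations and homogeneous polynomials of sections, the identity theorem,
finite bases
-/

set_option linter.all false

open Metric Filter Topology Asymptotics Set
open scoped Manifold ContDiff

noncomputable section

namespace Vale.Agent.P284W16

open Vale.Agent.P272.K Vale.Agent.P284.H248

/-- the homogenization of degree `D` of the polynomial `Q` -/
def homF {σ : Type} [Fintype σ] (Q : MvPolynomial σ ℂ) (D : ℕ) (v : σ → ℂ) (v0 : ℂ) : ℂ :=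
  ∑ β ∈ Q.support, Q.coeff β * ((∏ j, v j ^ β j) * v0 ^ (D - ∑ j, β j))

theorem homF_smul {σ : Type} [Fintype σ] {Q : MvPolynomial σ ℂ} {D : ℕ} (hD : Q.totalDegree ≤ D)
    (v : σ → ℂ) (v0 t : ℂ) : homF Q D (fun j => t * v j) (t * v0) = t ^ D * homF Q D v v0 := by
  unfold homF
  rw [Finset.mul_sum]
  refine Finset.sum_congr rfl fun β hβ => ?_
  have h1 : ∑ j, β j ≤ D := by
    have := (MvPolynomial.le_totalDegree hβ).trans hD
    rwa [Finsupp.sum_fintype _ _ (fun _ => rfl)] at this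
  have h2 : t ^ D = t ^ (∑ j, β j) * t ^ (D - ∑ j, β j) := by
    rw [← pow_add, Nat.add_sub_cancel' h1]
  simp only [mul_pow, Finset.prod_mul_distrib, Finset.prod_pow_eq_pow_sum]
  rw [h2]
  ring

theorem homF_div {σ : Type} [Fintype σ] {Q : MvPolynomial σ ℂ} {D : ℕ} (hD : Q.totalDegree ≤ D)
    (v : σ → ℂ) {v0 : ℂ} (h : v0 ≠ 0) :
    homF Q D v v0 = v0 ^ D * MvPolynomial.eval (fun j => v j / v0) Q := by
  have h1 := homF_smul hD (fun j => v j / v0) 1 v0
  have h2 : (fun j => v0 * (v j / v0)) = v := funext fun j => by field_simp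
  rw [h2, mul_one] at h1
  rw [h1, MvPolynomial.eval_eq']
  simp [homF]

variable {n : ℕ} {X : Type} [TopologicalSpace X] [ChartedSpace (Cm n) X]
variable {L : LineBundle n X} {m : ℕ}

/-- linear combinations -/
def lin {κ : Type} [Fintype κ] (c : κ → ℂ) (s : κ → Sec L m) : Sec L m where
  f i x := ∑ a, c a * (s a).f i x
  holo i e x he hi := ContDiffAt.sum fun a _ => contDiffAt_const.mul ((s a).holo i e x he hi)
  change i j x hi hj := by
    rw [Finset.mul_sum]
    refine Finset.sum_congr rfl fun a _ => ?_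
    rw [(s a).change i j x hi hj]
    ring

/-- homogeneous polynomials in sections -/
def homS {σ : Type} [Fintype σ] (Q : MvPolynomial σ ℂ) {D : ℕ} (hD : Q.totalDegree ≤ D)
    (t : σ → Sec L m) (s : Sec L m) : Sec L (m * D) where
  f i x := homF Q D (fun j => (t j).f i x) (s.f i x)
  holo i e x he hi := ContDiffAt.sum fun β _ => contDiffAt_const.mul
    ((contDiffAt_prod fun j _ => ((t j).holo i e x he hi).pow _).mul ((s.holo i e x he hi).pow _))
  change i j x hi hj := by
    rw [show (fun k => (t k).f i x) = fun k => L.g i j x ^ m * (t k).f j x from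
      funext fun k => (t k).change i j x hi hj, s.change i j x hi hj, homF_smul hD, pow_mul]

/-- the points where `t` does not vanish -/
def NZ (t : Sec L m) : Set X := {x | ∃ i, x ∈ L.U i ∧ t.f i x ≠ 0}

theorem mem_NZ (t : Sec L m) {i : L.ι} {x : X} (hi : x ∈ L.U i) : x ∈ NZ t ↔ t.f i x ≠ 0 := by
  refine ⟨fun ⟨j, hj, h⟩ => ?_, fun h => ⟨i, hi, h⟩⟩
  rw [t.change i j x hi hj]
  exact mul_ne_zero (pow_ne_zero _ (L.ne_zero i j x hi hj)) h

theorem isOpen_NZ (t : Sec L m) : IsOpen (NZ t) := by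
  refine isOpen_iff_mem_nhds.2 fun x ⟨i, hi, h⟩ => ?_
  filter_upwards [(L.isOpen i).mem_nhds hi, (sec_cont t hi).eventually_ne h] with y h1 h2
  exact ⟨i, h1, h2⟩

/-- the identity theorem -/
theorem dense_NZ [ConnectedSpace X] {t : Sec L m} (h : NonZero t) : Dense (NZ t) := by
  have hc : IsClosed (interior (NZ t)ᶜ) := by
    refine isClosed_of_closure_subset fun x hx => ?_
    obtain ⟨i, hi⟩ := L.cover x
    obtain ⟨ρ, hρ, hb⟩ := Metric.eventually_nhds_iff_ball.1
      (ev_chart (at_ch (n := n) x).2 ((L.isOpen i).eventually_mem hi))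
    have han : AnalyticOnNhd ℂ (fun z => t.f i ((ch n x).symm z)) (ball (ch n x x) ρ) :=
      fun z hz => sec_an t (at_ch x) (hb z hz).1 (hb z hz).2
    have hV : (ch n x).source ∩ ch n x ⁻¹' ball (ch n x x) ρ ∈ 𝓝 x :=
      ((ch n x).isOpen_inter_preimage isOpen_ball).mem_nhds ⟨(at_ch x).2, mem_ball_self hρ⟩
    obtain ⟨y, ⟨hy1, hy2⟩, hy3⟩ := mem_closure_iff_nhds.1 hx _ hV
    have h0 : (fun z => t.f i ((ch n x).symm z)) =ᶠ[𝓝 (ch n x y)] 0 := by
      filter_upwards [ev_chart hy1 (mem_interior_iff_mem_nhds.1 hy3),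
        isOpen_ball.mem_nhds hy2] with z hz hz'
      by_contra h1
      exact hz.2 ⟨i, (hb z hz').2, h1⟩
    have h2 := han.eqOn_zero_of_preconnected_of_eventuallyEq_zero
      (convex_ball _ _).isPreconnected hy2 h0
    refine mem_interior_iff_mem_nhds.2 (mem_of_superset hV fun w hw hw' => ?_)
    have h3 := h2 hw.2
    have h4 := (hb _ hw.2).2
    simp only [(ch n x).left_inv hw.1] at h3 h4
    exact (mem_NZ t h4).1 hw' h3
  rcases isClopen_iff.1 ⟨hc, isOpen_interior⟩ with h1 | h1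
  · simpa using interior_eq_empty_iff_dense_compl.1 h1
  · obtain ⟨i, x, hi, hx⟩ := h
    exact absurd ⟨i, hi, hx⟩ (interior_subset (h1.symm ▸ mem_univ x : x ∈ interior (NZ t)ᶜ))

/-- the values of a section -/
def res (t : Sec L m) : ((i : L.ι) × L.U i) → ℂ := fun p => t.f p.1 p.2

theorem card_le [T2Space X] [CompactSpace X] (L : LineBundle n X) (m : ℕ) :
    ∃ C : ℕ, ∀ (N : ℕ) (s : Fin N → Sec L m), LinearIndependent ℂ (fun a => res (s a)) → N ≤ C := by
  classical
  obtain ⟨T, r, ι, m0, hr, hb, hv⟩ := van L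
  refine ⟨T.card * (m0 * m + 1) ^ n, fun N s hs => ?_⟩
  by_contra hN
  let F : Fin N → X → Cm n → ℂ := fun a b z => (s a).f (ι b) ((ch n b).symm z)
  have hF : ∀ a b, AnalyticAt ℂ (F a b) (ch n b b) := fun a b =>
    sec_an _ (at_ch b) (hb b _ (mem_ball_self (hr b))).1 (hb b _ (mem_ball_self (hr b))).2
  let Φ : (Fin N → ℂ) →ₗ[ℂ] (T × (Fin n → Fin (m0 * m + 1)) → ℂ) :=
    Matrix.toLin' (Matrix.of fun (q : T × (Fin n → Fin (m0 * m + 1))) (a : Fin N) =>
      P299.H908.jet q.2 (ch n q.1.1 q.1.1) (F a q.1.1))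
  have h1 : Module.finrank ℂ (T × (Fin n → Fin (m0 * m + 1)) → ℂ) <
      Module.finrank ℂ (Fin N → ℂ) := by
    simp only [Module.finrank_fintype_fun_eq_card, Fintype.card_prod, Fintype.card_coe,
      Fintype.card_pi_const, Fintype.card_fin]
    omega
  obtain ⟨c, hc, hc0⟩ := (Submodule.ne_bot_iff _).1 (LinearMap.ker_ne_bot_of_finrank_lt (f := Φ) h1)
  have h2 := hv (fun b => ch n b b) (fun b => mem_ball_self (hr b)) m (lin c s) fun b hbT => by
    have h4 : AnalyticAt ℂ (fun z => ∑ a, c a * F a b z) (ch n b b) :=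
      Finset.analyticAt_fun_sum _ fun a _ => analyticAt_const.mul (hF a b)
    refine ord_of_jet h4 fun α => ?_
    refine (P299.H908.jet_sum α _ Finset.univ c (fun a => F a b) fun a _ => hF a b).trans ?_
    have h3 := congrFun (LinearMap.mem_ker.1 hc) (⟨b, hbT⟩, α)
    simp only [Φ, Matrix.toLin'_apply, Matrix.mulVec, dotProduct, Matrix.of_apply,
      Pi.zero_apply] at h3
    rw [← h3]
    exact Finset.sum_congr rfl fun a _ => mul_comm _ _
  refine hc0 (funext fun a => Fintype.linearIndependent_iff.1 hs c (funext fun p => ?_) a)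
  simpa [res, lin] using h2 p.1 p.2 p.2.2

/-- `H⁰(X, L^m)` is finite dimensional -/
theorem exists_basis [T2Space X] [CompactSpace X] {t : Sec L m} (ht : NonZero t) :
    ∃ (N : ℕ) (s : Fin (N + 1) → Sec L m), IsBasis s := by
  classical
  obtain ⟨C, hC⟩ := card_le L m
  let P : ℕ → Prop := fun N => ∃ s : Fin (N + 1) → Sec L m, LinearIndependent ℂ fun a => res (s a)
  have h0 : P 0 := by
    refine ⟨fun _ => t, (linearIndependent_unique_iff (ι := Fin 1)).2 fun h => ?_⟩
    obtain ⟨i, x, hi, hx⟩ := ht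
    exact hx (congrFun h ⟨i, x, hi⟩)
  obtain ⟨s, hs⟩ : P (Nat.findGreatest P C) := Nat.findGreatest_spec (Nat.zero_le C) h0
  refine ⟨_, s, fun u => ?_⟩
  have h1 : res u ∈ Submodule.span ℂ (range fun a => res (s a)) := by
    by_contra h1
    have h2 : LinearIndependent ℂ fun a => res ((Fin.cons u s : Fin (_ + 1 + 1) → Sec L m) a) := by
      have h5 : (fun a => res ((Fin.cons u s : Fin (_ + 1 + 1) → Sec L m) a)) =
          Fin.cons (res u) fun a => res (s a) := funext fun a => Fin.cases rfl (fun _ => rfl) a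
      rw [h5]
      exact linearIndependent_finCons.2 ⟨hs, h1⟩
    have h3 := hC _ _ h2
    exact Nat.findGreatest_is_greatest (P := P) (Nat.lt_succ_self _) (by omega) ⟨_, h2⟩
  obtain ⟨c, hc⟩ := (Submodule.mem_span_range_iff_exists_fun ℂ).1 h1
  refine ⟨c, fun i x hi => ?_, fun c' hc' => ?_⟩
  · simpa [res] using (congrFun hc ⟨i, x, hi⟩).symm
  · refine funext fun a => sub_eq_zero.1
      (Fintype.linearIndependent_iff.1 hs (fun a => c' a - c a) (funext fun p => ?_) a)
    have h2 := congrFun hc p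
    have h3 := hc' p.1 p.2 p.2.2
    simp only [res, Finset.sum_apply, Pi.smul_apply, smul_eq_mul, Pi.zero_apply, sub_mul,
      Finset.sum_sub_distrib] at h2 ⊢
    rw [h2, ← h3, sub_self]

end Vale.Agent.P284W16
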