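import Vale.Agent.P284W16.Sec
import Vale.Agent.P284.H66.Rk2

/-!
# P284W16: analytically dependent quotients of sections are algebraically dependent
-/

set_option linter.all false

open Metric Filter Topology Asymptotics Set
open scoped Manifold ContDiff

noncomputable section

namespace Vale.Agent.P284W16

open Vale.Agent.P272.K Vale.Agent.P284.H248 Vale.Agent.P284.H66.Rk

theorem indep_of_surj {V : Type} [AddCommGroup V] [Module ℂ V] {k : ℕ} (φ : Fin k → V →ₗ[ℂ] ℂ)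
    (h : Function.Surjective (LinearMap.pi φ)) : LinearIndependent ℂ φ := by
  classical
  refine Fintype.linearIndependent_iff.2 fun c hc b => ?_
  obtain ⟨v, hv⟩ := h (Pi.single b 1)
  have h1 := LinearMap.congr_fun hc v
  have h2 : ∀ a, φ a v = (Pi.single b 1 : Fin k → ℂ) a := fun a => congrFun hv a
  simpa [h2, Pi.single_apply] using h1

theorem surj_of_indep {V : Type} [AddCommGroup V] [Module ℂ V] {k : ℕ} (φ : Fin k → V →ₗ[ℂ] ℂ)
    (h : LinearIndependent ℂ φ) : Function.Surjective (LinearMap.pi φ) := by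
  classical
  by_contra h1
  obtain ⟨ψ, hψ, h2⟩ := Submodule.exists_le_ker_of_lt_top (LinearMap.range (LinearMap.pi φ))
    (lt_top_iff_ne_top.2 fun h3 => h1 (LinearMap.range_eq_top.1 h3))
  have h3 := Fintype.linearIndependent_iff.1 h (fun a => ψ (Pi.single a 1)) (by
    ext v
    have h4 : ψ (LinearMap.pi φ v) = 0 := h2 ⟨v, rfl⟩
    rw [LinearMap.pi_apply_eq_sum_univ] at h4
    simp only [LinearMap.coe_sum, Finset.sum_apply, LinearMap.smul_apply, smul_eq_mul,
      LinearMap.zero_apply]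
    rw [← h4]
    refine Finset.sum_congr rfl fun a _ => ?_
    rw [LinearMap.pi_apply, smul_eq_mul, mul_comm]
    congr 2
    funext j
    simp [Pi.single_apply, eq_comm])
  refine hψ (LinearMap.pi_ext' fun a => LinearMap.ext_ring ?_)
  simpa using h3 a

theorem clm_indep {V : Type} [NormedAddCommGroup V] [NormedSpace ℂ V] {k : ℕ}
    (φ : Fin k → V →L[ℂ] ℂ) :
    LinearIndependent ℂ φ ↔ Function.Surjective (ContinuousLinearMap.pi φ) := by
  have h1 : LinearIndependent ℂ φ ↔ LinearIndependent ℂ fun a => (φ a : V →ₗ[ℂ] ℂ) :=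
    (LinearMap.linearIndependent_iff_of_injOn (ContinuousLinearMap.coeLM ℂ)
      (ContinuousLinearMap.coe_injective.injOn)).symm
  rw [h1]
  exact ⟨fun h => surj_of_indep _ h, fun h => indep_of_surj _ h⟩

theorem exists_center {n k : ℕ} {H : Cm n → Cm (k + 1)} {W : Set (Cm n)} (hW : IsOpen W)
    (hne : W.Nonempty) (hH : ∀ z ∈ W, AnalyticAt ℂ H z)
    (hr : ∀ z ∈ W, ¬ Function.Surjective (fderiv ℂ H z)) :
    ∃ c ∈ W, ∃ r ≤ k, ∃ (π : Cm n → Cm r) (h : Cm r → Cm (k + 1)), AnalyticAt ℂ π c ∧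
      AnalyticAt ℂ h (π c) ∧ ∀ᶠ z in 𝓝 c, H z = h (π z) := by
  have h1 : ∀ z ∈ W, rk H z ≤ k := by
    intro z hz
    have h2 := Submodule.finrank_lt (K := ℂ)
      (s := LinearMap.range (fderiv ℂ H z : Cm n →ₗ[ℂ] Cm (k + 1)))
      fun h3 => hr z hz (LinearMap.range_eq_top.1 h3)
    simp only [Module.finrank_fintype_fun_eq_card, Fintype.card_fin] at h2
    exact Nat.lt_succ_iff.1 h2
  have hb : BddAbove (rk H '' W) := ⟨k, by
    rintro _ ⟨z, hz, rfl⟩
    exact h1 z hz⟩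
  obtain ⟨c, hc, hc'⟩ := Nat.sSup_mem (hne.image (rk H)) hb
  obtain ⟨π, h, h2, h3, h4⟩ := const_rank (H := H) (y := c) (hH c hc).contDiffAt (by
    filter_upwards [hW.mem_nhds hc] with z hz
    rw [hc']
    exact le_csSup hb ⟨z, hz, rfl⟩)
  exact ⟨c, hc, rk H c, h1 c hc, π, h, h2.analyticAt, h3.analyticAt, h4⟩

theorem Ord.comp {n r h : ℕ} {F : Cm r → ℂ} {π : Cm n → Cm r} {c : Cm n} (ho : Ord h F (π c))
    (hπ : AnalyticAt ℂ π c) : Ord h (fun z => F (π z)) c := by
  refine (IsBigO.comp_tendsto ho hπ.continuousAt.tendsto).trans ?_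
  exact (hπ.differentiableAt.isBigO_sub.norm_norm).pow h

variable {n : ℕ} {X : Type} [TopologicalSpace X] [ChartedSpace (Cm n) X]
variable {L : LineBundle n X} {m : ℕ}

/-- **Siegel, Thimm** -/
theorem thimm [T2Space X] [CompactSpace X] [ConnectedSpace X] {k : ℕ} (s : Sec L m)
    (t : Fin (k + 1) → Sec L m) (hs : NonZero s)
    (hr : ∀ i (e : Chart n X) x, At e x → x ∈ L.U i → s.f i x ≠ 0 →
      ¬ LinearIndependent ℂ fun a : Fin (k + 1) =>
      fderiv ℂ (fun z => (t a).f i (e.symm z) / s.f i (e.symm z)) (e x)) :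
    ∃ P : MvPolynomial (Fin (k + 1)) ℂ, P ≠ 0 ∧ ∀ i x, x ∈ L.U i → s.f i x ≠ 0 →
      MvPolynomial.eval (fun a => (t a).f i x / s.f i x) P = 0 := by
  classical
  obtain ⟨T, r, ι, m0, hr0, hb, hv⟩ := van L
  let H : X → Cm n → Cm (k + 1) := fun b z a =>
    (t a).f (ι b) ((ch n b).symm z) / s.f (ι b) ((ch n b).symm z)
  let W : X → Set (Cm n) := fun b =>
    ball (ch n b b) (r b) ∩ ((ch n b).target ∩ (ch n b).symm ⁻¹' NZ s)
  have hW0 : ∀ b, ∀ z ∈ W b, s.f (ι b) ((ch n b).symm z) ≠ 0 := fun b z hz =>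
    (mem_NZ s (hb b z hz.1).2).1 hz.2.2
  have hHa : ∀ b, ∀ z ∈ W b, ∀ a, AnalyticAt ℂ (fun z => H b z a) z := fun b z hz a =>
    (sec_an (t a) (at_ch b) hz.2.1 (hb b z hz.1).2).div
      (sec_an s (at_ch b) hz.2.1 (hb b z hz.1).2) (hW0 b z hz)
  have hWo : ∀ b, IsOpen (W b) := fun b =>
    isOpen_ball.inter ((ch n b).symm.isOpen_inter_preimage (isOpen_NZ s))
  have hcen : ∀ b, ∃ c ∈ W b, ∃ ρ ≤ k, ∃ (π : Cm n → Cm ρ) (h : Cm ρ → Cm (k + 1)),
      AnalyticAt ℂ π c ∧ AnalyticAt ℂ h (π c) ∧ ∀ᶠ z in 𝓝 c, H b z = h (π z) := by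
    intro b
    refine exists_center (hWo b) ?_ (fun z hz => analyticAt_pi_iff.2 (hHa b z hz)) fun z hz h1 => ?_
    · obtain ⟨y, hy1, hy2⟩ := (dense_NZ hs).inter_open_nonempty _
        ((ch n b).isOpen_inter_preimage (isOpen_ball (x := ch n b b) (ε := r b)))
        ⟨b, (at_ch b).2, mem_ball_self (hr0 b)⟩
      refine ⟨ch n b y, hy1.2, (ch n b).map_source hy1.1, ?_⟩
      simpa [(ch n b).left_inv hy1.1] using hy2
    · refine hr (ι b) (ch n b) _ (at_symm (at_ch b) hz.2.1) (hb b z hz.1).2 (hW0 b z hz) ?_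
      rw [(ch n b).right_inv hz.2.1, clm_indep]
      rwa [fderiv_pi fun a => (hHa b z hz a).differentiableAt] at h1
  choose c hc ρ hρ π h hπ hh hH using hcen
  obtain ⟨q, hq, hqq⟩ := P299.H908.exists_q T.card (m0 * m) k
  set D := (k + 1) * q with hD
  set g := m0 * m * D + 1 with hg
  let mon : (b : X) → (Fin (k + 1) → Fin q) → Cm (ρ b) → ℂ := fun b β u => ∏ a, h b u a ^ (β a : ℕ)
  have hmon : ∀ b β, AnalyticAt ℂ (mon b β) (π b (c b)) := fun b β =>
    Finset.analyticAt_fun_prod _ fun a _ => (analyticAt_pi_iff.1 (hh b) a).pow _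
  let Φ : ((Fin (k + 1) → Fin q) → ℂ) →ₗ[ℂ] (((b : T) × (Fin (ρ b) → Fin g)) → ℂ) :=
    Matrix.toLin' (Matrix.of fun (p : (b : T) × (Fin (ρ b) → Fin g)) (β : Fin (k + 1) → Fin q) =>
      P299.H908.jet p.2 (π p.1 (c p.1)) (mon p.1 β))
  have h1 : Module.finrank ℂ (((b : T) × (Fin (ρ b) → Fin g)) → ℂ) <
      Module.finrank ℂ ((Fin (k + 1) → Fin q) → ℂ) := by
    simp only [Module.finrank_fintype_fun_eq_card, Fintype.card_sigma, Fintype.card_pi_const,
      Fintype.card_fin]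
    refine lt_of_le_of_lt ?_ hqq
    refine (Finset.sum_le_card_nsmul _ (fun b : T => g ^ ρ b) (g ^ k) fun b _ =>
      Nat.pow_le_pow_right (Nat.succ_pos _) (hρ b)).trans ?_
    simp
  obtain ⟨γ, hγ, hγ0⟩ := (Submodule.ne_bot_iff _).1 (LinearMap.ker_ne_bot_of_finrank_lt (f := Φ) h1)
  let ex : (Fin (k + 1) → Fin q) → Fin (k + 1) →₀ ℕ := fun β =>
    Finsupp.equivFunOnFinite.symm fun a => (β a : ℕ)
  have hex : Function.Injective ex := fun β β' hβ =>
    funext fun a => Fin.ext (congrFun (Finsupp.equivFunOnFinite.symm.injective hβ) a)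
  let P : MvPolynomial (Fin (k + 1)) ℂ := ∑ β, MvPolynomial.monomial (ex β) (γ β)
  have hPe : ∀ v : Cm (k + 1), MvPolynomial.eval v P = ∑ β, γ β * ∏ a, v a ^ (β a : ℕ) := by
    intro v
    simp only [P, map_sum, MvPolynomial.eval_monomial]
    refine Finset.sum_congr rfl fun β _ => ?_
    rw [Finsupp.prod_fintype _ _ (fun _ => pow_zero _)]
    rfl
  have hPd : P.totalDegree ≤ D := by
    refine MvPolynomial.totalDegree_finsetSum_le fun β _ =>
      (MvPolynomial.totalDegree_monomial_le _ _).trans ?_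
    rw [Finsupp.sum_fintype _ _ (fun _ => rfl)]
    calc ∑ a, id (ex β a) ≤ ∑ _a : Fin (k + 1), q := Finset.sum_le_sum fun a _ => (β a).2.le
      _ = D := by simp [hD]
  have h2 := hv c (fun b => (hc b).1) _ (homS P hPd t s) fun b hbT => by
    have h3 : Ord g (fun u => ∑ β, γ β * mon b β u) (π b (c b)) := by
      refine ord_of_jet (Finset.analyticAt_fun_sum _ fun β _ =>
        (analyticAt_const (v := γ β)).mul (hmon b β)) fun α => ?_
      refine (P299.H908.jet_sum α _ Finset.univ γ (mon b) fun β _ => hmon b β).trans ?_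
      have h3 := congrFun (LinearMap.mem_ker.1 hγ) ⟨⟨b, hbT⟩, α⟩
      simp only [Φ, Matrix.toLin'_apply, Matrix.mulVec, dotProduct, Matrix.of_apply,
        Pi.zero_apply] at h3
      rw [← h3]
      exact Finset.sum_congr rfl fun a _ => mul_comm _ _
    have h4 : (fun z => s.f (ι b) ((ch n b).symm z) ^ D) =O[𝓝 (c b)] fun _ => (1 : ℝ) :=
      ((sec_an s (at_ch b) (hc b).2.1 (hb b _ (hc b).1).2).pow D).continuousAt.isBigO_one ℝ
    have h5 := h4.mul (h3.comp (hπ b))
    rw [← mul_assoc m0 m D]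
    refine IsBigO.congr' h5 ?_ (Eventually.of_forall fun z => one_mul _)
    filter_upwards [hH b, (hWo b).mem_nhds (hc b)] with z h6 h7
    simp only [homS]
    rw [homF_div hPd _ (hW0 b z h7), hPe]
    simp only [mon, ← h6, H]
  refine ⟨P, fun h0 => hγ0 (funext fun β => ?_), fun i x hi hx => ?_⟩
  · have h3 := congrArg (MvPolynomial.coeff (ex β)) h0
    simpa [P, MvPolynomial.coeff_sum, MvPolynomial.coeff_monomial, hex.eq_iff] using h3
  · have h3 := h2 i x hi
    simp only [homS] at h3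
    rw [homF_div hPd _ hx] at h3
    exact (mul_eq_zero.1 h3).resolve_left (pow_ne_zero _ hx)

end Vale.Agent.P284W16
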