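import Vale.Agent.P284W16.Thimm

/-!
# P284W16: the image in affine coordinates, upper bound for its dimension
-/

set_option linter.all false

open Metric Filter Topology Asymptotics Set
open scoped Manifold ContDiff

noncomputable section

namespace Vale.Agent.P284W16

open Vale.Agent.P272.K Vale.Agent.P284.H248

variable {N : ℕ}

/-- affine coordinates -/
def co (a : Fin (N + 1)) (v : Fin (N + 1) → ℂ) : Cm N := fun b => v (a.succAbove b) / v a

theorem co_smul (a : Fin (N + 1)) (v : Fin (N + 1) → ℂ) {t : ℂ} (ht : t ≠ 0) :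
    co a (t • v) = co a v := funext fun b => by
  simp [co, mul_div_mul_left _ _ ht]

theorem ins_co (a : Fin (N + 1)) {v : Fin (N + 1) → ℂ} (h : v a ≠ 0) :
    v a • (Fin.insertNth a 1 (co a v) : Fin (N + 1) → ℂ) = v := by
  funext j
  refine Fin.succAboveCases a ?_ (fun b => ?_) j
  · simp
  · simp only [Pi.smul_apply, Fin.insertNth_apply_succAbove, co, smul_eq_mul]
    field_simp

theorem aff_co (a : Fin (N + 1)) {v : Fin (N + 1) → ℂ} (h : v a ≠ 0) (hv : v ≠ 0) :
    pt v hv = aff a (co a v) :=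
  (Projectivization.mk_eq_mk_iff' ℂ _ _ _ _).2 ⟨v a, ins_co a h⟩

theorem closed_co (a : Fin (N + 1)) {φ : Cm N → ℂ} (hφ : Continuous φ) :
    IsClosed {y : PN N | ∀ v hv, y = pt v hv → v a ≠ 0 → φ (co a v) = 0} := by
  have h1 : IsQuotientMap (Quotient.mk (projectivizationSetoid ℂ (Fin (N + 1) → ℂ))) :=
    isQuotientMap_quot_mk
  refine h1.isClosed_preimage.1 ?_
  have h2 : IsOpen {v : {v : Fin (N + 1) → ℂ // v ≠ 0} | v.1 a ≠ 0 ∧ φ (co a v.1) ≠ 0} := by
    refine isOpen_iff_mem_nhds.2 fun v hv => ?_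
    have h3 : ∀ j, ContinuousAt (fun u : {v : Fin (N + 1) → ℂ // v ≠ 0} => u.1 j) v :=
      fun j => ((continuous_apply j).comp continuous_subtype_val).continuousAt
    have h4 : ContinuousAt (fun u : {v : Fin (N + 1) → ℂ // v ≠ 0} => φ (co a u.1)) v :=
      hφ.continuousAt.comp (continuousAt_pi.2 fun b => (h3 _).div (h3 a) hv.1)
    exact ((h3 a).eventually_ne hv.1).and (h4.eventually_ne hv.2)
  convert h2.isClosed_compl using 1
  ext v
  simp only [mem_preimage, mem_setOf_eq, mem_compl_iff, not_and, not_not]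
  refine ⟨fun h h' => h v.1 v.2 rfl h', fun h u hu h' hua => ?_⟩
  obtain ⟨t, ht⟩ := (Projectivization.mk_eq_mk_iff' ℂ v.1 u v.2 hu).1 h'
  have ht0 : t ≠ 0 := fun h0 => v.2 (by rw [← ht, h0, zero_smul])
  rw [← co_smul a u ht0, ht]
  refine h ?_
  rw [← ht]
  exact mul_ne_zero ht0 hua

theorem poly_zero {k : ℕ} {P : MvPolynomial (Fin k) ℂ} {ζ : Cm k}
    (h : ∀ᶠ z in 𝓝 ζ, MvPolynomial.eval z P = 0) : P = 0 := by
  have h1 : AnalyticOnNhd ℂ (fun z : Cm k => MvPolynomial.eval z P) univ := fun z _ => by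
    simpa [MvPolynomial.aeval_eq_eval] using AnalyticAt.aeval_mvPolynomial (𝕜 := ℂ) (z := z)
      (f := fun z : Cm k => z) (fun i => (ContinuousLinearMap.proj (R := ℂ) i).analyticAt z) P
  have h2 := h1.eqOn_zero_of_preconnected_of_eventuallyEq_zero isPreconnected_univ (mem_univ ζ) h
  exact MvPolynomial.funext fun z => by simpa using h2 (mem_univ z)

variable {n : ℕ} {X : Type} [TopologicalSpace X] [ChartedSpace (Cm n) X]
variable {L : LineBundle n X} {m : ℕ}

/-- the values of a family of sections -/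
def vec (s : Fin (N + 1) → Sec L m) (i : L.ι) (x : X) : Fin (N + 1) → ℂ := fun a => (s a).f i x

theorem image_zero (s : Fin (N + 1) → Sec L m) (a : Fin (N + 1)) {φ : Cm N → ℂ}
    (hφ : Continuous φ) (h : ∀ i x, x ∈ L.U i → (s a).f i x ≠ 0 → φ (co a (vec s i x)) = 0)
    {w : Cm N} (hw : aff a w ∈ image s) : φ w = 0 := by
  obtain ⟨q, hq, hq'⟩ := hw
  have h1 : closure (graph s) ⊆
      Prod.snd ⁻¹' {y : PN N | ∀ v hv, y = pt v hv → v a ≠ 0 → φ (co a v) = 0} := by
    refine closure_minimal ?_ ((closed_co a hφ).preimage continuous_snd)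
    rintro p ⟨i, hi, h0, hp⟩ v hv h2 hva
    obtain ⟨t, ht⟩ := (Projectivization.mk_eq_mk_iff' ℂ _ _ hv h0).1 (h2.symm.trans hp)
    have ht0 : t ≠ 0 := fun h0 => hv (by rw [← ht, h0, zero_smul])
    rw [← ht, co_smul a _ ht0]
    refine h i _ hi fun h3 => hva ?_
    rw [← ht]
    simp [h3]
  have h2 := h1 hq _ _ hq' (by simp)
  have h3 : co a (Fin.insertNth a 1 w) = w := funext fun b => by simp [co]
  rwa [h3] at h2

theorem mem_image (s : Fin (N + 1) → Sec L m) (a : Fin (N + 1)) {i : L.ι} {x : X}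
    (hi : x ∈ L.U i) (h : (s a).f i x ≠ 0) : aff a (co a (vec s i x)) ∈ image s := by
  have h0 : vec s i x ≠ 0 := fun h1 => h (congrFun h1 a)
  exact ⟨(x, pt _ h0), subset_closure ⟨i, hi, h0, rfl⟩, aff_co a h h0⟩

/-- the map defined by the sections of `L^m` has rank at least `k` at some point -/
def RkGE (L : LineBundle n X) (m k : ℕ) : Prop :=
  ∃ (s : Fin (k + 1) → Sec L m) (i : L.ι) (e : Chart n X) (x : X),
    At e x ∧ x ∈ L.U i ∧ (s 0).f i x ≠ 0 ∧
    LinearIndependent ℂ fun a : Fin k =>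
      fderiv ℂ (fun z => (s a.succ).f i (e.symm z) / (s 0).f i (e.symm z)) (e x)

theorem thimm' [T2Space X] [CompactSpace X] [ConnectedSpace X] {k : ℕ} (hk : ¬ RkGE L m (k + 1))
    (s : Sec L m) (t : Fin (k + 1) → Sec L m) (hs : NonZero s) :
    ∃ P : MvPolynomial (Fin (k + 1)) ℂ, P ≠ 0 ∧ ∀ i x, x ∈ L.U i → s.f i x ≠ 0 →
      MvPolynomial.eval (fun a => (t a).f i x / s.f i x) P = 0 :=
  thimm s t hs fun i e x he hi hx hl => hk ⟨Fin.cons s t, i, e, x, he, hi, hx, hl⟩

theorem upper [T2Space X] [CompactSpace X] [ConnectedSpace X] {k d : ℕ} (hk : ¬ RkGE L m (k + 1))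
    (s : Fin (N + 1) → Sec L m) {y : PN N} (h : RegularAt (image s) y d) : d ≤ k := by
  classical
  obtain ⟨hy, a, p, G, E, rfl, hG, hb, hE, hY⟩ := h
  by_contra hd
  have hs : NonZero (s a) := by
    by_contra h0
    exact one_ne_zero (image_zero s a (φ := fun _ => 1) continuous_const
      (fun i x hi hx => absurd ⟨i, x, hi, hx⟩ h0) hy)
  obtain ⟨μ0, hμ0⟩ : ∃ μ0 : E →ₗ[ℂ] Cm (k + 1), Function.Surjective μ0 := by
    let b := Module.finBasisOfFinrankEq ℂ E hE
    have h1 := (LinearMap.funLeft_surjective_of_injective ℂ ℂ _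
      (Fin.castLE_injective (by omega : k + 1 ≤ d))).comp b.equivFun.surjective
    exact ⟨LinearMap.funLeft ℂ ℂ (Fin.castLE (by omega : k + 1 ≤ d)) ∘ₗ b.equivFun.toLinearMap, h1⟩
  obtain ⟨μ, hμ⟩ := LinearMap.exists_extend μ0
  let D : Cm N ≃L[ℂ] Cm N := ContinuousLinearEquiv.ofBijective (fderiv ℂ G p)
    (LinearMap.ker_eq_bot.2 hb.1) (LinearMap.range_eq_top.2 hb.2)
  have hD : HasStrictFDerivAt G (D : Cm N →L[ℂ] Cm N) p := hG.hasStrictFDerivAt
  let lam : Cm N →L[ℂ] Cm (k + 1) := (LinearMap.toContinuousLinearMap μ).comp (D : Cm N →L[ℂ] Cm N)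
  obtain ⟨P, hP0, hP⟩ := thimm' hk (s a)
    (fun j => lin (fun b => lam (Pi.single b 1) j) fun b => s (a.succAbove b)) hs
  have hP' : ∀ w, aff a w ∈ image s → MvPolynomial.eval (lam w) P = 0 := by
    intro w hw
    refine image_zero s a (φ := fun w => MvPolynomial.eval (lam w) P)
      ((MvPolynomial.continuous_eval P).comp lam.continuous) (fun i x hi hx => ?_) hw
    rw [← hP i x hi hx]
    congr 2
    funext j
    have h1 := LinearMap.pi_apply_eq_sum_univ (lam : Cm N →ₗ[ℂ] Cm (k + 1)) (co a (vec s i x))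
    simp only [ContinuousLinearMap.coe_coe] at h1
    rw [h1]
    simp only [lin, Finset.sum_apply, Finset.sum_div, co, vec, Pi.smul_apply, smul_eq_mul]
    refine Finset.sum_congr rfl fun b _ => ?_
    have h2 : (fun j => if b = j then (1 : ℂ) else 0) = Pi.single b 1 :=
      funext fun j => by simp [Pi.single_apply, eq_comm]
    rw [h2]
    ring
  let u0 : E := ⟨G p, hY.self_of_nhds.1 hy⟩
  let Ψ := hD.localInverse G D p
  have h1 : HasStrictFDerivAt (fun u : E => lam (Ψ u))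
      (lam.comp ((D.symm : Cm N →L[ℂ] Cm N).comp E.subtypeL)) u0 :=
    lam.hasStrictFDerivAt.comp u0
      (HasStrictFDerivAt.comp u0 (g := Ψ) hD.to_localInverse E.subtypeL.hasStrictFDerivAt)
  have h2 := h1.map_nhds_eq_of_surj (LinearMap.range_eq_top.2 fun ζ => by
    obtain ⟨u, hu⟩ := hμ0 ζ
    refine ⟨u, ?_⟩
    rw [← hu, ← hμ]
    simp [lam])
  refine hP0 (poly_zero (ζ := lam (Ψ u0)) ?_)
  rw [← h2, eventually_map]
  have h3 : Tendsto (fun u : E => (u : Cm N)) (𝓝 u0) (𝓝 (G p)) :=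
    continuous_subtype_val.tendsto u0
  filter_upwards [h3.eventually hD.eventually_right_inverse,
    h3.eventually (hD.localInverse_tendsto.eventually hY)] with u h4 h5
  refine hP' _ (h5.2 ?_)
  rw [h4]
  exact u.2

end Vale.Agent.P284W16
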