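import Vale.Agent.P284W16.Defs
import Vale.Agent.P299.H908.Siegel

/-!
# P284W16: sections that vanish to high order at finitely many points vanish
-/

set_option linter.all false

open Metric Filter Topology Asymptotics Set
open scoped Manifold ContDiff

noncomputable section

namespace Vale.Agent.P284W16

open Vale.Agent.P272.K Vale.Agent.P284.H248

/-- vanishing to order `h` -/
def Ord {n : ℕ} (h : ℕ) (F : Cm n → ℂ) (c : Cm n) : Prop := F =O[𝓝 c] fun z => ‖z - c‖ ^ h

theorem Ord.schwarz {n h : ℕ} {F : Cm n → ℂ} {c : Cm n} {R M : ℝ} (ho : Ord (h + 1) F c)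
    (hd : DifferentiableOn ℂ F (ball c R)) (hM : ∀ z ∈ ball c R, ‖F z‖ ≤ M) :
    ∀ z ∈ ball c R, ‖F z‖ ≤ M * (dist z c / R) ^ (h + 1) := by
  intro z hz
  have h0 : F c = 0 := by
    obtain ⟨C, hC⟩ := ho.bound
    have := hC.self_of_nhds
    simpa using this
  have h1 : (fun w : Cm n => ‖w - c‖ ^ (h + 1)) =o[𝓝 c] fun w => ‖w - c‖ ^ h := by
    have h2 : Tendsto (fun w : Cm n => ‖w - c‖) (𝓝 c) (𝓝 0) := by
      have : ContinuousAt (fun w : Cm n => ‖w - c‖) c := by fun_prop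
      simpa using this.tendsto
    exact (isLittleO_pow_pow (𝕜 := ℝ) (Nat.lt_succ_self h)).comp_tendsto h2
  have h3 := Complex.dist_le_mul_div_pow_of_mapsTo_ball_of_isLittleO (n := h) (R₂ := M) hd
    (fun w hw => by simpa [h0] using hM w hw) (by simpa [h0] using ho.trans_isLittleO h1) hz
  simpa [h0] using h3

theorem ord_of_jet {n h : ℕ} {F : Cm n → ℂ} {c : Cm n} (hF : AnalyticAt ℂ F c)
    (hj : ∀ α : Fin n → Fin h, P299.H908.jet α c F = 0) : Ord h F c := by
  have h1 := P299.H908.iteratedFDeriv_eq_zero_of_jet hF hj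
  have h2 : ∀ᶠ z in 𝓝 c, AnalyticAt ℂ F z ∧ ‖F z‖ ≤ ‖F c‖ + 1 :=
    hF.eventually_analyticAt.and
      (hF.continuousAt.norm.eventually (ge_mem_nhds (lt_add_one _)))
  obtain ⟨R, hR, h3⟩ := Metric.eventually_nhds_iff_ball.1 h2
  have h4 := P299.H908.norm_le_of_iteratedFDeriv (fun z hz => (h3 z hz).1)
    (fun z hz => (h3 z hz).2) h1
  refine IsBigO.of_bound ((‖F c‖ + 1) / R ^ h) ?_
  filter_upwards [ball_mem_nhds c hR] with z hz
  refine (h4 z hz).trans (le_of_eq ?_)
  rw [dist_eq_norm, div_pow, Real.norm_of_nonneg (by positivity)]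
  ring

variable {n : ℕ} {X : Type} [TopologicalSpace X] [ChartedSpace (Cm n) X]

/-- the preferred chart -/
abbrev ch (n : ℕ) {X : Type} [TopologicalSpace X] [ChartedSpace (Cm n) X] (a : X) : Chart n X :=
  chartAt (Cm n) a

theorem at_ch (a : X) : At (ch n a) a := ⟨chart_mem_atlas _ a, mem_chart_source _ a⟩

theorem at_symm {e : Chart n X} {x : X} (h : At e x) {z : Cm n} (hz : z ∈ e.target) :
    At e (e.symm z) := ⟨h.1, e.map_target hz⟩

theorem cont_of_chart {F : X → ℂ} {e : Chart n X} {x : X} (hx : x ∈ e.source)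
    (h : ContinuousAt (fun z => F (e.symm z)) (e x)) : ContinuousAt F x := by
  refine (h.comp (e.continuousAt hx)).congr ?_
  filter_upwards [e.open_source.mem_nhds hx] with y hy
  simp [e.left_inv hy]

variable {L : LineBundle n X} {m : ℕ}

theorem g_cont {i j : L.ι} {x : X} (hi : x ∈ L.U i) (hj : x ∈ L.U j) : ContinuousAt (L.g i j) x :=
  cont_of_chart (at_ch x).2 (L.holo i j _ x (at_ch x) hi hj).continuousAt

theorem sec_cont (t : Sec L m) {i : L.ι} {x : X} (hi : x ∈ L.U i) : ContinuousAt (t.f i) x :=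
  cont_of_chart (at_ch x).2 (t.holo i _ x (at_ch x) hi).continuousAt

theorem sec_an (t : Sec L m) {i : L.ι} {e : Chart n X} {x : X} (he : At e x) {z : Cm n}
    (hz : z ∈ e.target) (hi : e.symm z ∈ L.U i) : AnalyticAt ℂ (fun z => t.f i (e.symm z)) z := by
  have := (t.holo i e _ (at_symm he hz) hi).analyticAt
  rwa [e.right_inv hz] at this

theorem ev_chart {e : Chart n X} {x : X} (hx : x ∈ e.source) {p : X → Prop}
    (h : ∀ᶠ y in 𝓝 x, p y) : ∀ᶠ z in 𝓝 (e x), z ∈ e.target ∧ p (e.symm z) := by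
  have h1 : Tendsto e.symm (𝓝 (e x)) (𝓝 x) := by
    have := (e.continuousAt_symm (e.map_source hx)).tendsto
    rwa [e.left_inv hx] at this
  exact (e.open_target.eventually_mem (e.map_source hx)).and (h1.eventually h)

theorem exists_cover [CompactSpace X] (L : LineBundle n X) :
    ∃ (T : Finset X) (r : X → ℝ) (ι : X → L.ι), (∀ a, 0 < r a) ∧
      (∀ a, ∀ z ∈ closedBall (ch n a a) (5 * r a), z ∈ (ch n a).target ∧
        (ch n a).symm z ∈ L.U (ι a)) ∧
      ∀ x, ∃ a ∈ T, x ∈ (ch n a).source ∧ ch n a x ∈ ball (ch n a a) (r a) := by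
  choose ι hι using L.cover
  have h1 : ∀ a : X, ∃ r : ℝ, 0 < r ∧ ∀ z ∈ closedBall (ch n a a) (5 * r),
      z ∈ (ch n a).target ∧ (ch n a).symm z ∈ L.U (ι a) := by
    intro a
    obtain ⟨ρ, hρ, h⟩ := Metric.eventually_nhds_iff_ball.1
      (ev_chart (at_ch (n := n) a).2 ((L.isOpen (ι a)).eventually_mem (hι a)))
    exact ⟨ρ / 10, by positivity, fun z hz => h z (closedBall_subset_ball (by linarith) hz)⟩
  choose r hr hb using h1
  let V : X → Set X := fun a => (ch n a).source ∩ ch n a ⁻¹' ball (ch n a a) (r a)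
  have hV : ∀ a ∈ (univ : Set X), V a ∈ 𝓝 a := fun a _ =>
    ((ch n a).isOpen_inter_preimage isOpen_ball).mem_nhds ⟨(at_ch a).2, mem_ball_self (hr a)⟩
  obtain ⟨T, -, hT⟩ := (isCompact_univ (X := X)).elim_nhds_subcover V hV
  refine ⟨T, r, ι, hr, hb, fun x => ?_⟩
  have := hT (mem_univ x)
  simp only [mem_iUnion] at this
  obtain ⟨a, ha, hx⟩ := this
  exact ⟨a, ha, hx.1, hx.2⟩

/-- **Siegel's vanishing lemma** with movable centres -/
theorem van [T2Space X] [CompactSpace X] (L : LineBundle n X) :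
    ∃ (T : Finset X) (r : X → ℝ) (ι : X → L.ι) (m0 : ℕ), (∀ a, 0 < r a) ∧
      (∀ a, ∀ z ∈ ball (ch n a a) (r a), z ∈ (ch n a).target ∧ (ch n a).symm z ∈ L.U (ι a)) ∧
      ∀ c : X → Cm n, (∀ a, c a ∈ ball (ch n a a) (r a)) → ∀ (d : ℕ) (t : Sec L d),
        (∀ a ∈ T, Ord (m0 * d + 1) (fun z => t.f (ι a) ((ch n a).symm z)) (c a)) →
        ∀ i x, x ∈ L.U i → t.f i x = 0 := by
  classical
  obtain ⟨T, r, ι, hr, hb, hcov⟩ := exists_cover L
  let K : X → Set X := fun a => (ch n a).symm '' closedBall (ch n a a) (5 * r a)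
  have hK : ∀ a, IsCompact (K a) := fun a => (isCompact_closedBall _ _).image_of_continuousOn
    ((ch n a).continuousOn_symm.mono fun z hz => (hb a z hz).1)
  have hKU : ∀ a, K a ⊆ L.U (ι a) := by
    rintro a _ ⟨z, hz, rfl⟩
    exact (hb a z hz).2
  have h1 : ∀ a b : X, ∃ M : ℕ, ∀ x ∈ K a ∩ K b, ‖L.g (ι a) (ι b) x‖ ≤ 2 ^ M := by
    intro a b
    obtain ⟨M, hM⟩ := ((hK a).inter (hK b)).exists_bound_of_continuousOn
      (f := L.g (ι a) (ι b)) fun x hx => (g_cont (hKU a hx.1) (hKU b hx.2)).continuousWithinAt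
    obtain ⟨k, hk⟩ := pow_unbounded_of_one_lt M (one_lt_two (α := ℝ))
    exact ⟨k, fun x hx => (hM x hx).trans hk.le⟩
  choose M hM using h1
  refine ⟨T, r, ι, (T ×ˢ T).sup fun p => M p.1 p.2, hr,
    fun a z hz => hb a z (ball_subset_closedBall.trans (closedBall_subset_closedBall
      (by linarith [hr a])) hz), fun c hc d t ho => ?_⟩
  set m0 := (T ×ˢ T).sup fun p => M p.1 p.2 with hm0
  have hsub : ∀ a, ball (c a) (4 * r a) ⊆ closedBall (ch n a a) (5 * r a) := by
    intro a z hz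
    have h2 := hc a
    rw [mem_ball] at hz h2
    rw [mem_closedBall]
    linarith [dist_triangle z (c a) (ch n a a)]
  have hsub2 : ∀ a, ball (ch n a a) (r a) ⊆ ball (c a) (2 * r a) := by
    intro a z hz
    have h2 := hc a
    rw [mem_ball] at hz h2 ⊢
    linarith [dist_triangle_right z (c a) (ch n a a)]
  let F : X → Cm n → ℂ := fun a z => t.f (ι a) ((ch n a).symm z)
  have hFan : ∀ a, ∀ z ∈ closedBall (ch n a a) (5 * r a), AnalyticAt ℂ (F a) z := fun a z hz =>
    sec_an t (at_ch a) (hb a z hz).1 (hb a z hz).2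
  have hstep : ∀ B : ℝ, (∀ a ∈ T, ∀ z ∈ ball (c a) (2 * r a), ‖F a z‖ ≤ B) →
      ∀ a ∈ T, ∀ z ∈ ball (c a) (2 * r a), ‖F a z‖ ≤ B / 2 := by
    intro B hB a ha z hz
    have hra := hr a
    have hB0 : 0 ≤ B := (norm_nonneg _).trans (hB a ha _ (mem_ball_self (by positivity)))
    have h2 : ∀ w ∈ ball (c a) (4 * r a), ‖F a w‖ ≤ (2 ^ m0) ^ d * B := by
      intro w hw
      obtain ⟨b, hbT, hx1, hx2⟩ := hcov ((ch n a).symm w)
      have hxa : (ch n a).symm w ∈ K a := ⟨w, hsub a hw, rfl⟩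
      have hxb : (ch n a).symm w ∈ K b := ⟨_, ball_subset_closedBall.trans
        (closedBall_subset_closedBall (by linarith [hr b])) hx2, (ch n b).left_inv hx1⟩
      have h3 := hB b hbT _ (hsub2 b hx2)
      simp only [F, (ch n b).left_inv hx1] at h3
      have h4 : ‖L.g (ι a) (ι b) ((ch n a).symm w)‖ ≤ 2 ^ m0 :=
        (hM a b _ ⟨hxa, hxb⟩).trans (pow_le_pow_right₀ one_le_two
          (Finset.le_sup (f := fun p : X × X => M p.1 p.2)
            (Finset.mem_product.2 ⟨ha, hbT⟩ : (a, b) ∈ T ×ˢ T)))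
      simp only [F]
      rw [t.change (ι a) (ι b) _ (hKU a hxa) (hKU b hxb), norm_mul, norm_pow]
      gcongr
    have h5 := (ho a ha).schwarz (R := 4 * r a)
      (fun w hw => (hFan a w (hsub a hw)).differentiableAt.differentiableWithinAt) h2 z
      (ball_subset_ball (by linarith) hz)
    refine h5.trans ?_
    have h6 : dist z (c a) / (4 * r a) ≤ 1 / 2 := by
      rw [div_le_iff₀ (by positivity)]
      linarith [mem_ball.1 hz]
    calc (2 ^ m0) ^ d * B * (dist z (c a) / (4 * r a)) ^ (m0 * d + 1)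
        ≤ (2 ^ m0) ^ d * B * (1 / 2) ^ (m0 * d + 1) := by gcongr
      _ = B / 2 := by
        rw [← pow_mul, pow_succ, one_div, inv_pow]
        field_simp
  obtain ⟨B, hB⟩ : ∃ B : ℝ, ∀ a ∈ T, ∀ z ∈ ball (c a) (2 * r a), ‖F a z‖ ≤ B := by
    have h2 : ∀ a, ∃ B : ℝ, ∀ z ∈ closedBall (ch n a a) (5 * r a), ‖F a z‖ ≤ B := fun a =>
      (isCompact_closedBall _ _).exists_bound_of_continuousOn fun z hz =>
        (hFan a z hz).continuousAt.continuousWithinAt
    choose B hB using h2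
    refine ⟨∑ a ∈ T, |B a|, fun a ha z hz => ?_⟩
    refine (hB a z (hsub a (ball_subset_ball (by linarith [hr a]) hz))).trans
      ((le_abs_self _).trans ?_)
    exact Finset.single_le_sum (f := fun a => |B a|) (fun _ _ => abs_nonneg _) ha
  have hit : ∀ k : ℕ, ∀ a ∈ T, ∀ z ∈ ball (c a) (2 * r a), ‖F a z‖ ≤ B * (1 / 2) ^ k := by
    intro k
    induction k with
    | zero => simpa using hB
    | succ k ih =>
      intro a ha z hz
      refine (hstep _ ih a ha z hz).trans (le_of_eq ?_)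
      ring
  intro i x hx
  obtain ⟨a, ha, hx1, hx2⟩ := hcov x
  have h7 : Tendsto (fun k : ℕ => B * (1 / 2 : ℝ) ^ k) atTop (𝓝 (B * 0)) :=
    (tendsto_pow_atTop_nhds_zero_of_lt_one (by norm_num) (by norm_num)).const_mul B
  have h8 := ge_of_tendsto' h7 fun k => hit k a ha _ (hsub2 a hx2)
  simp only [F, (ch n a).left_inv hx1, mul_zero, norm_le_zero_iff] at h8
  have hxa : x ∈ K a := ⟨_, ball_subset_closedBall.trans
    (closedBall_subset_closedBall (by linarith [hr a])) hx2, (ch n a).left_inv hx1⟩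
  rw [t.change i (ι a) x hx (hKU a hxa), h8, mul_zero]

end Vale.Agent.P284W16
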